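import Vale.Agent.P257.G.Ind
import Vale.Agent.P257.Main.Final
import Vale.Agent.P257.H762.MHasV
import Vale.Agent.P257EJ.BP
import Vale.Agent.P251CX.Top

/-!
# P257: Smith-Toda complexes in the stable homotopy category of orthogonal spectra

The localization of orthogonal spectra at the `π_*`-isomorphisms is one of the pairs `(T, S)`. In
each such pair and for every prime `p`, the homotopy of the Brown-Peterson spectrum is
`ℤ_(p)[v_1, v_2, …]` on the Hazewinkel generators (it vanishes in odd and in negative degrees, each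
element is a fraction `φ x / m` with `m` prime to `p`, and `φ` is injective); for every `n` with
`p ≥ 2 ^ (n + 1) + 2` (and for `n ≤ 4`, `p ≥ 11`) a Smith-Toda complex `V(n)` exists; and for odd
`p` the complex `V(n)` exists if `V(n + 1)` exists.
-/

namespace Vale.Agent.Results.P257.AAAAAAInterval

open Vale.Agent.P251.St (SHCat Susp)
open Vale.Agent.P251.St.SHCat Vale.Agent.P251CX Vale.Agent.P251CY Vale.Agent.P251CY.V

theorem result : (∃ (T : SHCat) (S : Susp T), Nonempty (IsSH T S.toSuspData)) ∧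
    ∀ (T : SHCat) (S : Susp T) (p : ℕ), p.Prime →
      (∀ (B : RingSp T) (o : Oriented S B) (φ : GHom S p B), IsBrownPeterson p o φ →
        (∀ (k : ℤ) (f : Hom (sphere T k) B.obj), Odd k ∨ k < 0 → f = nul _ _) ∧
        (∀ (k : ℕ) (y : PiR S B k), ∃ (m : ℤ) (x : VPoly p k), ¬ (p : ℤ) ∣ m ∧
          zmul m y = φ.val x) ∧
        ∀ (k : ℕ) (x : VPoly p k), φ.val x = nul _ _ → x.pol = 0) ∧
      (∀ n : ℕ, (2 ^ (n + 1) + 2 ≤ p ∨ (n ≤ 4 ∧ 11 ≤ p)) → HasV S p n) ∧
      (p ≠ 2 → ∀ n : ℕ, HasV S p (n + 1) → HasV S p n) := by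
  refine ⟨exists_isSH, fun _ S p hp => ⟨P257EJ.coef' hp, fun n h => (hasV_iff S p n).2 (h.elim
    (Vale.Agent.P257.G.hasV S n p hp) fun ⟨h4, h11⟩ => ?_), fun h2 n h => (hasV_iff S p n).2
      (Vale.Agent.P257.H762.hasV_mono hp h2 ((hasV_iff S p (n + 1)).1 h))⟩⟩
  exact Nat.decreasingInduction (motive := fun k _ => Vale.Agent.P257.St.HasV S p k)
    (fun _ _ k => Vale.Agent.P257.H762.hasV_mono hp (by omega) k)
    (Vale.Agent.P257.Main.hasV_four S hp h11) h4

end Vale.Agent.Results.P257.AAAAAAInterval
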